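import Vale.Agent.P153.Tau.Pot

/-!
# P153, block A2: heights and pairs of spins

A height `h` is coded modulo 4 by the pair `(τ, σ)`: `τ = +` for `0, 1` and `σ = 1` for `1, 2`.
`plus h` is the set of the vertices with `τ = +`. For a region `D` such that every vertex off `D`
is the origin of a ray off `D`, the height functions of `D` with free `{0,1}` boundary values are
in bijection with the compatible pairs of spins.
-/

namespace Vale.Agent.P153.Tau

open Finset Vale.Agent.P153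

/-- the vertices with `τ = +` -/
def plus (h : ℤ × ℤ → ℤ) : Set (ℤ × ℤ) := {v | h v % 4 = 0 ∨ h v % 4 = 1}

/-- the spin `σ` -/
def sg (h : ℤ × ℤ → ℤ) (v : ℤ × ℤ) : ZMod 2 := if h v % 4 = 1 ∨ h v % 4 = 2 then 1 else 0

open Classical in
/-- the value of the height modulo 4 -/
noncomputable def code (A : Set (ℤ × ℤ)) (s : ℤ × ℤ → ZMod 2) (v : ℤ × ℤ) : ℤ :=
  if v ∈ A then (if s v = 0 then 0 else 1) else (if s v = 0 then 3 else 2)

/-- `s` is constant on the bichromatic edges of `A` -/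
def Comp (A : Set (ℤ × ℤ)) (s : ℤ × ℤ → ZMod 2) : Prop :=
  ∀ x y, Adj x y → x ∈ A → y ∉ A → s x = s y

theorem code_mod (A : Set (ℤ × ℤ)) (s : ℤ × ℤ → ZMod 2) (v : ℤ × ℤ) :
    code A s v % 4 = code A s v := by
  unfold code
  split_ifs <;> rfl

theorem mod_eq_code (h : ℤ × ℤ → ℤ) (v : ℤ × ℤ) : h v % 4 = code (plus h) (sg h) v := by
  have h1 : h v % 4 = 0 ∨ h v % 4 = 1 ∨ h v % 4 = 2 ∨ h v % 4 = 3 := by omega
  have h2 : v ∈ plus h ↔ h v % 4 = 0 ∨ h v % 4 = 1 := Iff.rfl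
  unfold code sg
  rcases h1 with h1 | h1 | h1 | h1 <;> rw [h1] at h2 ⊢ <;> simp [h2]

theorem of_code {h : ℤ × ℤ → ℤ} {A : Set (ℤ × ℤ)} {s : ℤ × ℤ → ZMod 2}
    (hc : ∀ v, h v % 4 = code A s v) : plus h = A ∧ sg h = s := by
  have h2 : ∀ a : ZMod 2, a = 0 ∨ a = 1 := by decide
  constructor
  · ext v
    have := hc v
    unfold code at this
    unfold plus
    rw [Set.mem_ofPred_eq, this]
    by_cases hv : v ∈ A
    · simp only [hv, if_true, iff_true]
      split_ifs <;> simp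
    · simp only [hv, if_false, iff_false]
      split_ifs <;> simp
  · funext v
    have := hc v
    unfold code at this
    unfold sg
    rw [this]
    rcases h2 (s v) with h3 | h3 <;> by_cases hv : v ∈ A <;> simp [h3, hv]

theorem comp_of_lip {h : ℤ × ℤ → ℤ} (hl : ∀ v w, Adj v w → |h v - h w| ≤ 1) :
    Comp (plus h) (sg h) := by
  intro x y hxy hx hy
  have h1 := abs_le.1 (hl x y hxy)
  unfold plus at hx hy
  rw [Set.mem_ofPred_eq] at hx hy
  unfold sg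
  have h2 : (h x % 4 = 1 ∨ h x % 4 = 2) ↔ (h y % 4 = 1 ∨ h y % 4 = 2) := by
    omega
  simp only [h2]

/-- the step between two codes -/
noncomputable def stp (A : Set (ℤ × ℤ)) (s : ℤ × ℤ → ZMod 2) (x y : ℤ × ℤ) : ℤ :=
  Int.bmod (code A s x - code A s y) 4

theorem code_range (A : Set (ℤ × ℤ)) (s : ℤ × ℤ → ZMod 2) (v : ℤ × ℤ) :
    code A s v = 0 ∨ code A s v = 1 ∨ code A s v = 2 ∨ code A s v = 3 := by
  unfold code
  split_ifs <;> simp

theorem Comp.ne2 {A : Set (ℤ × ℤ)} {s : ℤ × ℤ → ZMod 2} (h : Comp A s) {x y : ℤ × ℤ}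
    (hxy : Adj x y) : (code A s x - code A s y) % 4 ≠ 2 := by
  have h1 := h x y hxy
  have h2 := h y x (Fv.adj_comm'.1 hxy)
  unfold code
  by_cases hx : x ∈ A <;> by_cases hy : y ∈ A
  · simp only [hx, hy, if_true]
    split_ifs <;> simp
  · simp only [hx, hy, if_true, if_false, h1 hx hy]
    split_ifs <;> simp
  · simp only [hx, hy, if_true, if_false, h2 hy hx]
    split_ifs <;> simp
  · simp only [hx, hy, if_false]
    split_ifs <;> simp

theorem Comp.stp_spec {A : Set (ℤ × ℤ)} {s : ℤ × ℤ → ZMod 2} (h : Comp A s) {x y : ℤ × ℤ}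
    (hxy : Adj x y) : |stp A s x y| ≤ 1 ∧ (stp A s x y) % 4 = (code A s x - code A s y) % 4 := by
  have h1 := h.ne2 hxy
  unfold stp
  have h3 := code_range A s x
  have h4 := code_range A s y
  rw [abs_le]
  rcases h3 with h3 | h3 | h3 | h3 <;> rcases h4 with h4 | h4 | h4 | h4 <;>
    rw [h3, h4] at h1 ⊢ <;> first | (exact absurd rfl h1) | decide

theorem Comp.unique {A : Set (ℤ × ℤ)} {s : ℤ × ℤ → ZMod 2} {x y : ℤ × ℤ} {a : ℤ}
    (ha : |a| ≤ 1) (h4 : a % 4 = (code A s x - code A s y) % 4) (h : Comp A s) (hxy : Adj x y) :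
    a = stp A s x y := by
  obtain ⟨h1, h2⟩ := h.stp_spec hxy
  rw [abs_le] at ha h1
  omega

theorem Comp.stp_anti {A : Set (ℤ × ℤ)} {s : ℤ × ℤ → ZMod 2} (h : Comp A s) {x y : ℤ × ℤ}
    (hxy : Adj x y) : stp A s y x = -stp A s x y := by
  obtain ⟨h1, h2⟩ := h.stp_spec hxy
  obtain ⟨h3, h4⟩ := h.stp_spec (Fv.adj_comm'.1 hxy)
  rw [abs_le] at h1 h3
  omega

theorem Comp.stp_tri {A : Set (ℤ × ℤ)} {s : ℤ × ℤ → ZMod 2} (h : Comp A s) {x y z : ℤ × ℤ}
    (hxy : Adj x y) (hyz : Adj y z) (hxz : Adj x z) :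
    stp A s x y + stp A s y z = stp A s x z := by
  obtain ⟨h1, h2⟩ := h.stp_spec hxy
  obtain ⟨h3, h4⟩ := h.stp_spec hyz
  obtain ⟨h5, h6⟩ := h.stp_spec hxz
  rw [abs_le] at h1 h3 h5
  omega

/-- a box containing `D` -/
theorem exists_box (D : Finset (ℤ × ℤ)) : ∃ R : ℤ, ∀ x ∈ D, |x.1| ≤ R ∧ |x.2| ≤ R := by
  refine ⟨∑ x ∈ D, (|x.1| + |x.2|), fun x hx => ?_⟩
  have h1 : |x.1| + |x.2| ≤ ∑ x ∈ D, (|x.1| + |x.2|) :=
    single_le_sum (f := fun x : ℤ × ℤ => |x.1| + |x.2|) (fun y _ => by positivity) hx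
  constructor <;> nlinarith [abs_nonneg x.1, abs_nonneg x.2]

/-- the pairs of spins of the region `D` -/
def Pairs (D : Finset (ℤ × ℤ)) (A : Set (ℤ × ℤ)) (s : ℤ × ℤ → ZMod 2) : Prop :=
  (Fv.inner D)ᶜ ⊆ A ∧ (∀ x, x ∉ D → s x = 0) ∧ Comp A s

theorem pairs_of_reg {D : Finset (ℤ × ℤ)} {h : ℤ × ℤ → ℤ} (hh : h ∈ Fv.reg D) :
    Pairs D (plus h) (sg h) := by
  obtain ⟨h1, h2, h3⟩ := Fv.mem_reg.1 hh
  refine ⟨fun v hv => ?_, fun v hv => ?_, comp_of_lip h3⟩
  · unfold plus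
    rw [Set.mem_ofPred_eq]
    by_cases hD : v ∈ D
    · rcases h2 v hD hv with h4 | h4 <;> simp [h4]
    · simp [h1 v hD]
  · unfold sg
    simp [h1 v hv]

theorem code_off {D : Finset (ℤ × ℤ)} {A : Set (ℤ × ℤ)} {s : ℤ × ℤ → ZMod 2}
    (h : Pairs D A s) {v : ℤ × ℤ} (hv : v ∉ D) : code A s v = 0 := by
  have h1 : v ∈ A := h.1 fun h2 => hv h2.1
  unfold code
  simp [h1, h.2.1 v hv]

/-- a function with steps at most one and the right values modulo four is determined -/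
theorem lift_unique {h g : ℤ × ℤ → ℤ} {R : ℤ}
    (hl : ∀ v w, Adj v w → |h v - h w| ≤ 1) (gl : ∀ v w, Adj v w → |g v - g w| ≤ 1)
    (hm : ∀ v, h v % 4 = g v % 4) (h0 : ∀ x : ℤ × ℤ, R < |x.1| → h x = g x) : h = g := by
  refine eq_of_sub (R := R) (fun x y hxy => ?_) h0
  have h1 := abs_le.1 (hl x y hxy)
  have h2 := abs_le.1 (gl x y hxy)
  have h3 := hm x
  have h4 := hm y
  omega

theorem reg_inj {D : Finset (ℤ × ℤ)} {h g : ℤ × ℤ → ℤ} (hh : h ∈ Fv.reg D) (hg : g ∈ Fv.reg D)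
    (h1 : plus h = plus g) (h2 : sg h = sg g) : h = g := by
  obtain ⟨R, hR⟩ := exists_box D
  have hm := Fv.mem_reg.1 hh
  have gm := Fv.mem_reg.1 hg
  refine lift_unique (R := R) hm.2.2 gm.2.2
    (fun v => by rw [mod_eq_code, mod_eq_code, h1, h2]) fun x hx => ?_
  have hxD : x ∉ D := fun h3 => absurd (hR x h3).1 (not_le.2 hx)
  rw [hm.1 x hxD, gm.1 x hxD]

theorem exists_lift {D : Finset (ℤ × ℤ)} (hD : Ray D) {A : Set (ℤ × ℤ)} {s : ℤ × ℤ → ZMod 2}
    (h : Pairs D A s) : ∃ g ∈ Fv.reg D, plus g = A ∧ sg g = s := by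
  obtain ⟨R, hR⟩ := exists_box D
  have hc := h.2.2
  have hoff : ∀ x y, Adj x y → x ∉ D → y ∉ D → stp A s x y = 0 := by
    intro x y _ hx hy
    unfold stp
    rw [code_off h hx, code_off h hy]
    rfl
  have hadj : ∀ x y : ℤ × ℤ, Adj x y → |x.1 - y.1| ≤ 1 ∧ |x.2 - y.2| ≤ 1 := by
    intro x y hxy
    rcases Fv.adj_iff.1 hxy with ⟨h1, h2⟩ | ⟨h1, h2⟩ | ⟨h1, h2⟩ | ⟨h1, h2⟩ | ⟨h1, h2⟩ | ⟨h1, h2⟩ <;>
      rw [h1, h2] <;> simp
  have hη : Coch (stp A s) (R + 1) := by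
    refine ⟨fun x y hxy => hc.stp_anti hxy, fun x y z hxy hyz hxz => hc.stp_tri hxy hyz hxz,
      fun x y hxy hx => hoff x y hxy (fun hxD => ?_) fun hyD => ?_⟩
    · have := hR x hxD
      omega
    · have h1 := hR y hyD
      obtain ⟨h2, h3⟩ := hadj x y hxy
      rw [abs_le] at h1 h2 h3
      rw [abs_le] at h1
      simp only [lt_abs] at hx
      omega
  set g := pot (stp A s) (R + 1) with hg
  have hsub : ∀ x y, Adj x y → g x - g y = stp A s x y := fun x y hxy => hη.sub hxy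
  have hl : ∀ v w, Adj v w → |g v - g w| ≤ 1 := by
    intro v w hvw
    rw [hsub v w hvw]
    exact (hc.stp_spec hvw).1
  have h0 : ∀ x, x ∉ D → g x = 0 := fun x hx => hη.pot_off hD hoff hx
  have hmod : ∀ v, g v % 4 = code A s v := by
    have e : (fun v => ((g v : ℤ) : ZMod 4)) = fun v => ((code A s v : ℤ) : ZMod 4) := by
      refine eq_of_sub (R := R) (fun x y hxy => ?_) fun x hx => ?_
      · rw [← Int.cast_sub, ← Int.cast_sub, hsub x y hxy]
        have h2 := (hc.stp_spec hxy).2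
        exact (ZMod.intCast_eq_intCast_iff' _ _ 4).2 (by exact_mod_cast h2)
      · have hxD : x ∉ D := fun h3 => absurd (hR x h3).1 (not_le.2 hx)
        simp only [h0 x hxD, code_off h hxD]
    intro v
    have h2 : ((g v : ℤ) : ZMod 4) = ((code A s v : ℤ) : ZMod 4) := congrFun e v
    have h3 := (ZMod.intCast_eq_intCast_iff' _ _ 4).1 h2
    rw [← code_mod A s v]
    exact_mod_cast h3
  refine ⟨g, Fv.mem_reg.2 ⟨h0, fun v hv hv' => ?_, hl⟩, of_code hmod⟩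
  have h1 : v ∈ A := h.1 hv'
  have h2 : ∃ w, Adj v w ∧ w ∉ D := by
    by_contra hcon
    push Not at hcon
    exact hv' ⟨hv, hcon⟩
  obtain ⟨w, hw, hwD⟩ := h2
  have h3 := abs_le.1 (hl v w hw)
  rw [h0 w hwD, sub_zero] at h3
  have h4 := hmod v
  unfold code at h4
  rw [if_pos h1] at h4
  split_ifs at h4 <;> omega

end Vale.Agent.P153.Tau
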