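import Vale.Agent.P153.Model.Box

/-!
# P153, block A2: potentials of closed 1-cochains on the triangular lattice

A closed 1-cochain with bounded support on the triangular lattice `ℤ × ℤ` is the coboundary of a
function which vanishes far away; the function is obtained by summation along horizontal rays.
-/

namespace Vale.Agent.P153.Tau

open Finset Vale.Agent.P153

variable {G : Type*} [AddCommGroup G]

/-- antisymmetric, closed on triangles, and zero on edges with an end outside the box of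
radius `R` -/
structure Coch (η : ℤ × ℤ → ℤ × ℤ → G) (R : ℤ) : Prop where
  anti : ∀ x y, Adj x y → η y x = -η x y
  tri : ∀ x y z, Adj x y → Adj y z → Adj x z → η x y + η y z = η x z
  far : ∀ x y, Adj x y → (R < |x.1| ∨ R < |x.2|) → η x y = 0

/-- sum along the horizontal ray from `x` to the right -/
def pot (η : ℤ × ℤ → ℤ × ℤ → G) (R : ℤ) (x : ℤ × ℤ) : G :=
  ∑ k ∈ range (R + 1 - x.1).toNat, η (x.1 + k, x.2) (x.1 + k + 1, x.2)

theorem adj_e1 (x : ℤ × ℤ) : Adj x (x.1 + 1, x.2) := by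
  rw [Fv.adj_iff]; left; simp

theorem adj_e2 (x : ℤ × ℤ) : Adj x (x.1, x.2 + 1) := by
  rw [Fv.adj_iff]; right; right; left; simp

theorem adj_e3 (x : ℤ × ℤ) : Adj x (x.1 + 1, x.2 - 1) := by
  rw [Fv.adj_iff]; simp

variable {η : ℤ × ℤ → ℤ × ℤ → G} {R : ℤ}

theorem pot_right {x : ℤ × ℤ} (hx : R < x.1) : pot η R x = 0 := by
  have : (R + 1 - x.1).toNat = 0 := by omega
  rw [pot, this]
  simp

theorem Coch.e1 (h : Coch η R) (x : ℤ × ℤ) :
    pot η R x = η x (x.1 + 1, x.2) + pot η R (x.1 + 1, x.2) := by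
  by_cases hx : R < x.1
  · rw [pot_right hx, pot_right (x := (x.1 + 1, x.2)) (by simp; omega),
      h.far x _ (adj_e1 x) (Or.inl (lt_of_lt_of_le hx (le_abs_self _)))]
    simp
  · have h1 : (R + 1 - x.1).toNat = (R + 1 - (x.1 + 1)).toNat + 1 := by omega
    rw [pot, h1, sum_range_succ', add_comm]
    congr 1
    · simp
    · rw [pot]
      refine sum_congr rfl fun k _ => ?_
      push_cast
      congr 2 <;> ring

theorem Coch.far_e2 (h : Coch η R) (n : ℕ) : ∀ x : ℤ × ℤ, R + 1 - n ≤ x.1 →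
    pot η R x = η x (x.1, x.2 + 1) + pot η R (x.1, x.2 + 1) := by
  induction n with
  | zero =>
    intro x hx
    have hx : R < x.1 := by push_cast at hx; omega
    rw [pot_right hx, pot_right (x := (x.1, x.2 + 1)) hx,
      h.far x _ (adj_e2 x) (Or.inl (lt_of_lt_of_le hx (le_abs_self _)))]
    simp
  | succ n ih =>
    intro x hx
    have h1 := ih (x.1 + 1, x.2) (by push_cast at hx ⊢; omega)
    have h2 := h.e1 x
    have h3 := h.e1 (x.1, x.2 + 1)
    simp only at h1 h3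
    have t1 := h.tri x (x.1, x.2 + 1) (x.1 + 1, x.2) (adj_e2 x)
      (by rw [Fv.adj_iff]; simp) (adj_e1 x)
    have t2 := h.tri (x.1, x.2 + 1) (x.1 + 1, x.2) (x.1 + 1, x.2 + 1)
      (by rw [Fv.adj_iff]; simp) (by rw [Fv.adj_iff]; simp) (by rw [Fv.adj_iff]; simp)
    rw [h2, h1, h3, ← t1, ← t2]
    abel

theorem Coch.e2 (h : Coch η R) (x : ℤ × ℤ) :
    pot η R x = η x (x.1, x.2 + 1) + pot η R (x.1, x.2 + 1) :=
  h.far_e2 (R + 1 - x.1).toNat x (by omega)

theorem Coch.e3 (h : Coch η R) (x : ℤ × ℤ) :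
    pot η R x = η x (x.1 + 1, x.2 - 1) + pot η R (x.1 + 1, x.2 - 1) := by
  have h2 := h.e1 x
  have h3 := h.e2 (x.1 + 1, x.2 - 1)
  simp only [sub_add_cancel] at h3
  have t1 := h.tri x (x.1 + 1, x.2 - 1) (x.1 + 1, x.2) (adj_e3 x)
    (by rw [Fv.adj_iff]; simp) (adj_e1 x)
  rw [h2, h3, ← t1]
  abel

/-- the potential -/
theorem Coch.sub (h : Coch η R) {x y : ℤ × ℤ} (hxy : Adj x y) :
    pot η R x - pot η R y = η x y := by
  have key : ∀ x y : ℤ × ℤ, Adj x y → (y = (x.1 + 1, x.2) ∨ y = (x.1, x.2 + 1) ∨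
      y = (x.1 + 1, x.2 - 1)) → pot η R x - pot η R y = η x y := by
    rintro x y - (rfl | rfl | rfl)
    · rw [h.e1 x]; abel
    · rw [h.e2 x]; abel
    · rw [h.e3 x]; abel
  rcases Fv.adj_iff.1 hxy with ⟨h1, h2⟩ | ⟨h1, h2⟩ | ⟨h1, h2⟩ | ⟨h1, h2⟩ | ⟨h1, h2⟩ | ⟨h1, h2⟩
  · exact key x y hxy (Or.inl (Prod.ext h1 h2))
  · have := key y x (Fv.adj_comm'.1 hxy) (Or.inl (Prod.ext (by simp; omega) h2.symm))
    rw [h.anti x y hxy] at this
    rw [← neg_sub, this, neg_neg]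
  · exact key x y hxy (Or.inr (Or.inl (Prod.ext h1 h2)))
  · have := key y x (Fv.adj_comm'.1 hxy) (Or.inr (Or.inl (Prod.ext h1.symm (by simp; omega))))
    rw [h.anti x y hxy] at this
    rw [← neg_sub, this, neg_neg]
  · exact key x y hxy (Or.inr (Or.inr (Prod.ext h1 h2)))
  · have := key y x (Fv.adj_comm'.1 hxy)
      (Or.inr (Or.inr (Prod.ext (by simp; omega) (by simp; omega))))
    rw [h.anti x y hxy] at this
    rw [← neg_sub, this, neg_neg]

theorem Coch.up (h : Coch η R) {x : ℤ × ℤ} (hx : R < |x.1|) (k : ℕ) :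
    pot η R (x.1, x.2 + k) = pot η R x := by
  induction k with
  | zero => simp
  | succ k ih =>
    have h1 := h.e2 (x.1, x.2 + k)
    rw [h.far (x.1, x.2 + (k : ℤ)) _ (adj_e2 (x.1, x.2 + (k : ℤ))) (Or.inl hx), zero_add] at h1
    rw [← ih, h1]
    push_cast
    simp [add_assoc]

/-- the potential vanishes far away -/
theorem Coch.pot_far (h : Coch η R) {x : ℤ × ℤ} (hx : R < |x.1| ∨ R < |x.2|) :
    pot η R x = 0 := by
  have key : ∀ x : ℤ × ℤ, R < |x.2| → pot η R x = 0 := by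
    intro x hx
    rw [pot]
    exact sum_eq_zero fun k _ => h.far (x.1 + k, x.2) _ (adj_e1 (x.1 + k, x.2)) (Or.inr hx)
  rcases hx with hx | hx
  · rw [← h.up hx (R + 1 - x.2).toNat]
    apply key
    have h1 : (R + 1 - x.2 : ℤ) ≤ (R + 1 - x.2).toNat := Int.self_le_toNat _
    have h2 : R < x.2 + ((R + 1 - x.2).toNat : ℤ) := by omega
    exact lt_of_lt_of_le h2 (le_abs_self _)
  · exact key x hx

/-- every vertex off `D` is the origin of a lattice ray which does not meet `D` -/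
def Ray (D : Finset (ℤ × ℤ)) : Prop :=
  ∀ x, x ∉ D → ∃ e : ℤ × ℤ, Adj 0 e ∧ ∀ k : ℕ, (x.1 + k * e.1, x.2 + k * e.2) ∉ D

theorem adj_zero {e : ℤ × ℤ} : Adj 0 e ↔ e = (1, 0) ∨ e = (-1, 0) ∨ e = (0, 1) ∨ e = (0, -1) ∨
    e = (1, -1) ∨ e = (-1, 1) := by
  rw [Fv.adj_iff]
  simp only [Prod.fst_zero, zero_add, Prod.snd_zero, zero_sub, Prod.ext_iff]

theorem adj_ray (x e : ℤ × ℤ) (he : Adj 0 e) (k : ℕ) :
    Adj (x.1 + k * e.1, x.2 + k * e.2) (x.1 + (k + 1 : ℕ) * e.1, x.2 + (k + 1 : ℕ) * e.2) := by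
  rw [Fv.adj_iff]
  rw [Fv.adj_iff] at he
  push_cast
  simp only [Prod.fst_zero, zero_add, Prod.snd_zero, zero_sub] at he
  rcases he with ⟨h1, h2⟩ | ⟨h1, h2⟩ | ⟨h1, h2⟩ | ⟨h1, h2⟩ | ⟨h1, h2⟩ | ⟨h1, h2⟩ <;>
    rw [h1, h2] <;> ring_nf <;> simp

theorem ray_far (x e : ℤ × ℤ) (he : Adj 0 e) (R : ℤ) :
    ∃ k : ℕ, R < |x.1 + k * e.1| ∨ R < |x.2 + k * e.2| := by
  refine ⟨(|R| + |x.1| + |x.2| + 1).toNat, ?_⟩
  have h0 : (0 : ℤ) ≤ |R| + |x.1| + |x.2| + 1 := by positivity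
  rw [Int.toNat_of_nonneg h0]
  have a1 := le_abs_self R
  have a2 := neg_abs_le x.1
  have a3 := le_abs_self x.1
  have a4 := neg_abs_le x.2
  have a5 := le_abs_self x.2
  rcases adj_zero.1 he with rfl | rfl | rfl | rfl | rfl | rfl <;> simp only [lt_abs] <;> omega

/-- the potential vanishes off `D` if the cochain vanishes on the edges off `D` -/
theorem Coch.pot_off (h : Coch η R) {D : Finset (ℤ × ℤ)} (hD : Ray D)
    (h0 : ∀ x y, Adj x y → x ∉ D → y ∉ D → η x y = 0) {x : ℤ × ℤ} (hx : x ∉ D) :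
    pot η R x = 0 := by
  obtain ⟨e, he, hk⟩ := hD x hx
  have key : ∀ k : ℕ, pot η R (x.1 + k * e.1, x.2 + k * e.2) = pot η R x := by
    intro k
    induction k with
    | zero => simp
    | succ k ih =>
      have h1 := h.sub (adj_ray x e he k)
      rw [h0 _ _ (adj_ray x e he k) (hk k) (hk (k + 1)), sub_eq_zero] at h1
      rw [← h1, ih]
  obtain ⟨k, hk2⟩ := ray_far x e he R
  rw [← key k]
  exact h.pot_far hk2

/-- two functions which differ by constants on edges and agree far away are equal -/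
theorem eq_of_sub {f g : ℤ × ℤ → G} (h : ∀ x y, Adj x y → f x - f y = g x - g y)
    (h0 : ∀ x : ℤ × ℤ, R < |x.1| → f x = g x) : f = g := by
  funext x
  have key : ∀ k : ℕ, f (x.1 + k, x.2) - f x = g (x.1 + k, x.2) - g x := by
    intro k
    induction k with
    | zero => simp
    | succ k ih =>
      have h1 := h _ _ (adj_e1 (x.1 + k, x.2))
      simp only at h1
      push_cast
      rw [← add_assoc]
      have h2 : f (x.1 + k + 1, x.2) - f x =
          (f (x.1 + k, x.2) - f x) - (f (x.1 + k, x.2) - f (x.1 + k + 1, x.2)) := by abel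
      have h3 : g (x.1 + k + 1, x.2) - g x =
          (g (x.1 + k, x.2) - g x) - (g (x.1 + k, x.2) - g (x.1 + k + 1, x.2)) := by abel
      rw [h2, h3, ih, h1]
  have h1 := key (|R| + |x.1| + 1).toNat
  have h2 := h0 (x.1 + ((|R| + |x.1| + 1).toNat : ℤ), x.2) (by
    have h0 : (0 : ℤ) ≤ |R| + |x.1| + 1 := by positivity
    rw [Int.toNat_of_nonneg h0]
    have a1 := le_abs_self R
    have a2 := neg_abs_le x.1
    simp only [lt_abs]
    omega)
  rw [h2] at h1
  exact sub_right_injective h1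

end Vale.Agent.P153.Tau
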